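import Vale.Agent.P050.R2.H146.Gas

/-!
P050, DenseTargets, module M2: weighted counting of connected sets.
-/

set_option autoImplicit false
set_option linter.all false

namespace Vale.Agent.P050.R2.H146

open Finset

variable {B : Type*} [DecidableEq B]

theorem sum_le_of_inj {ι κ : Type*} (s : Finset ι) (t : Finset κ) (f : ι → κ) (a : ι → ℝ)
    (b : κ → ℝ) (hb : ∀ k ∈ t, 0 ≤ b k) (hf : ∀ i ∈ s, f i ∈ t)
    (hinj : ∀ i ∈ s, ∀ j ∈ s, f i = f j → i = j) (h : ∀ i ∈ s, a i ≤ b (f i)) :
    ∑ i ∈ s, a i ≤ ∑ k ∈ t, b k := by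
  classical
  calc ∑ i ∈ s, a i ≤ ∑ i ∈ s, b (f i) := sum_le_sum h
    _ = ∑ k ∈ s.image f, b k := by
        rw [sum_image]
        intro i hi j hj hij
        exact hinj i hi j hj hij
    _ ≤ ∑ k ∈ t, b k := by
        refine sum_le_sum_of_subset_of_nonneg ?_ fun k hk _ => hb k hk
        intro k hk
        obtain ⟨i, hi, rfl⟩ := mem_image.1 hk
        exact hf i hi

/-- every point of `T` is joined to `R` inside `R ∪ T` -/
def Att (A : B → B → Prop) (R T : Finset B) : Prop :=
  ∀ t ∈ T, ∃ r ∈ R, Relation.ReflTransGen (Stp A (R ∪ T)) r t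

/-- the subsets of `L` attached to `R` -/
noncomputable def AttS (A : B → B → Prop) (R L : Finset B) : Finset (Finset B) := by
  classical
  exact L.powerset.filter fun T => Att A R T

theorem mem_AttS {A : B → B → Prop} {R L T : Finset B} :
    T ∈ AttS A R L ↔ T ⊆ L ∧ Att A R T := by
  classical
  simp [AttS]

/-- removing one root -/
theorem Att.erase {A : B → B → Prop} {R T : Finset B} {r : B} (hr : r ∈ R)
    (hd : Disjoint R T) (h : Att A R T) (N : Finset B) (hN : ∀ x ∈ T, A r x → x ∈ N) :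
    Att A (R.erase r ∪ T ∩ N) (T \ N) := by
  classical
  have hset : R.erase r ∪ T ∩ N ∪ T \ N = (R ∪ T).erase r := by
    have hrT : r ∉ T := disjoint_left.1 hd hr
    ext x
    simp only [mem_union, mem_erase, mem_inter, mem_sdiff]
    constructor
    · rintro ((⟨h1, h2⟩ | ⟨h1, h2⟩) | ⟨h1, h2⟩)
      · exact ⟨h1, Or.inl h2⟩
      · exact ⟨fun h3 => hrT (h3 ▸ h1), Or.inr h1⟩
      · exact ⟨fun h3 => hrT (h3 ▸ h1), Or.inr h1⟩
    · rintro ⟨h1, h2 | h2⟩
      · exact Or.inl (Or.inl ⟨h1, h2⟩)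
      · by_cases h3 : x ∈ N
        · exact Or.inl (Or.inr ⟨h2, h3⟩)
        · exact Or.inr ⟨h2, h3⟩
  have key : ∀ (r0 : B), r0 ∈ R → ∀ u, Relation.ReflTransGen (Stp A (R ∪ T)) r0 u →
      u = r ∨ ∃ r1 ∈ R.erase r ∪ T ∩ N,
        Relation.ReflTransGen (Stp A (R.erase r ∪ T ∩ N ∪ T \ N)) r1 u := by
    intro r0 hr0 u hu
    induction hu with
    | refl =>
      by_cases h1 : r0 = r
      · exact Or.inl h1
      · exact Or.inr ⟨r0, mem_union_left _ (mem_erase.2 ⟨h1, hr0⟩), .refl⟩
    | @tail v w h1 h2 ih =>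
      by_cases hw : w = r
      · exact Or.inl hw
      · right
        rcases ih with rfl | ⟨r1, hr1, h3⟩
        · refine ⟨w, ?_, .refl⟩
          rcases mem_union.1 h2.2.2 with h4 | h4
          · exact mem_union_left _ (mem_erase.2 ⟨hw, h4⟩)
          · exact mem_union_right _ (mem_inter.2 ⟨h4, hN w h4 h2.1⟩)
        · by_cases hv : v = r
          · refine ⟨w, ?_, .refl⟩
            rcases mem_union.1 h2.2.2 with h4 | h4
            · exact mem_union_left _ (mem_erase.2 ⟨hw, h4⟩)
            · exact mem_union_right _ (mem_inter.2 ⟨h4, hN w h4 (hv ▸ h2.1)⟩)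
          · refine ⟨r1, hr1, h3.tail ⟨h2.1, ?_, ?_⟩⟩
            · rw [hset]; exact mem_erase.2 ⟨hv, h2.2.1⟩
            · rw [hset]; exact mem_erase.2 ⟨hw, h2.2.2⟩
  intro t ht
  obtain ⟨ht1, ht2⟩ := mem_sdiff.1 ht
  obtain ⟨r0, hr0, h1⟩ := h t ht1
  rcases key r0 hr0 t h1 with h2 | h2
  · exact absurd (h2 ▸ ht1) (disjoint_left.1 hd hr)
  · exact h2

/-- **weighted count of attached sets** -/
theorem sum_att_le {A : B → B → Prop} {z : ℝ} {Δ : ℕ} (hz : 0 ≤ z) (hΔ : (1 + 2 * z) ^ Δ ≤ 2)
    (n : ℕ) : ∀ (R L : Finset B), R.card + L.card ≤ n → Disjoint R L →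
      (∀ r ∈ R ∪ L, ∀ N ⊆ L, (∀ x ∈ N, A r x) → N.card ≤ Δ) →
      ∑ T ∈ AttS A R L, z ^ T.card ≤ 2 ^ R.card := by
  classical
  induction n with
  | zero =>
    intro R L hn _ _
    have hR : R = ∅ := card_eq_zero.1 (by omega)
    have hL : L = ∅ := card_eq_zero.1 (by omega)
    subst hR hL
    have : AttS A (∅ : Finset B) ∅ ⊆ {∅} := by
      intro T hT
      rw [mem_AttS, subset_empty] at hT
      rw [mem_singleton]
      exact hT.1
    calc ∑ T ∈ AttS A (∅ : Finset B) ∅, z ^ T.card ≤ ∑ T ∈ ({∅} : Finset (Finset B)), z ^ T.card :=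
          sum_le_sum_of_subset_of_nonneg this fun _ _ _ => pow_nonneg hz _
      _ = 2 ^ (∅ : Finset B).card := by simp
  | succ n ih =>
    intro R L hn hd hdeg
    rcases R.eq_empty_or_nonempty with rfl | ⟨r, hr⟩
    · have : AttS A (∅ : Finset B) L ⊆ {∅} := by
        intro T hT
        rw [mem_AttS] at hT
        rw [mem_singleton]
        by_contra h1
        obtain ⟨t, ht⟩ := nonempty_iff_ne_empty.2 h1
        obtain ⟨r, hr, -⟩ := hT.2 t ht
        exact absurd hr (notMem_empty r)
      calc ∑ T ∈ AttS A (∅ : Finset B) L, z ^ T.card ≤ ∑ T ∈ ({∅} : Finset (Finset B)), z ^ T.card :=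
            sum_le_sum_of_subset_of_nonneg this fun _ _ _ => pow_nonneg hz _
        _ = 2 ^ (∅ : Finset B).card := by simp
    · set N : Finset B := L.filter (fun x => A r x) with hNdef
      have hNL : N ⊆ L := filter_subset _ _
      have hNcard : N.card ≤ Δ :=
        hdeg r (mem_union_left _ hr) N hNL fun x hx => (mem_filter.1 hx).2
      -- split `T` into `T ∩ N` and `T \ N`
      have h1 : ∑ T ∈ AttS A R L, z ^ T.card ≤
          ∑ P ∈ N.powerset, ∑ T ∈ AttS A (R.erase r ∪ P) (L \ N), z ^ P.card * z ^ T.card := by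
        rw [sum_sigma']
        refine sum_le_of_inj _ _ (fun T => (⟨T ∩ N, T \ N⟩ : Σ _ : Finset B, Finset B)) _ _
          (fun p _ => by positivity) ?_ ?_ ?_
        · intro T hT
          rw [mem_AttS] at hT
          show (⟨T ∩ N, T \ N⟩ : Σ _ : Finset B, Finset B) ∈ _
          rw [mem_sigma, mem_powerset, mem_AttS]
          refine ⟨inter_subset_right, sdiff_subset_sdiff hT.1 Subset.rfl, ?_⟩
          refine Att.erase hr (disjoint_of_subset_right hT.1 hd) hT.2 N fun x hx hA => ?_
          exact mem_filter.2 ⟨hT.1 hx, hA⟩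
        · intro T1 _ T2 _ h
          simp only [Sigma.mk.injEq, heq_eq_eq] at h
          ext x
          have e1 := Finset.ext_iff.1 h.1 x
          have e2 := Finset.ext_iff.1 h.2 x
          simp only [mem_inter, mem_sdiff] at e1 e2
          tauto
        · intro T hT
          show z ^ T.card ≤ z ^ (T ∩ N).card * z ^ (T \ N).card
          have e1 : (T ∩ N).card + (T \ N).card = T.card := by
            rw [← card_union_of_disjoint (disjoint_sdiff_inter T N).symm]
            congr 1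
            ext x
            simp only [mem_union, mem_inter, mem_sdiff]
            tauto
          rw [← pow_add, e1]
      refine h1.trans ?_
      have h2 : ∀ P ∈ N.powerset, ∑ T ∈ AttS A (R.erase r ∪ P) (L \ N),
          z ^ P.card * z ^ T.card ≤ 2 ^ (R.card - 1) * (2 * z) ^ P.card := by
        intro P hP
        rw [mem_powerset] at hP
        rw [← mul_sum]
        have hcardR : (R.erase r).card = R.card - 1 := card_erase_of_mem hr
        have hRpos : 0 < R.card := card_pos.2 ⟨r, hr⟩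
        have hc1 : (R.erase r ∪ P).card ≤ R.card - 1 + P.card :=
          (card_union_le _ _).trans (by rw [hcardR])
        have hc2 : (L \ N).card = L.card - N.card := card_sdiff_of_subset hNL
        have hc3 : P.card ≤ N.card := card_le_card hP
        have hc4 : N.card ≤ L.card := card_le_card hNL
        have hih := ih (R.erase r ∪ P) (L \ N) (by omega) ?_ ?_
        · have hpow : (2 : ℝ) ^ (R.erase r ∪ P).card ≤ 2 ^ (R.card - 1 + P.card) :=
            pow_le_pow_right₀ (by norm_num) hc1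
          calc z ^ P.card * ∑ T ∈ AttS A (R.erase r ∪ P) (L \ N), z ^ T.card
              ≤ z ^ P.card * 2 ^ (R.card - 1 + P.card) :=
                mul_le_mul_of_nonneg_left (hih.trans hpow) (by positivity)
            _ = 2 ^ (R.card - 1) * (2 * z) ^ P.card := by rw [pow_add, mul_pow]; ring
        · rw [disjoint_union_left]
          constructor
          · exact disjoint_of_subset_left (erase_subset _ _)
              (disjoint_of_subset_right sdiff_subset hd)
          · exact disjoint_of_subset_left hP disjoint_sdiff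
        · intro x hx Q hQ hQA
          refine hdeg x ?_ Q (hQ.trans sdiff_subset) hQA
          rcases mem_union.1 hx with h | h
          · rcases mem_union.1 h with h | h
            · exact mem_union_left _ (mem_of_mem_erase h)
            · exact mem_union_right _ (hNL (hP h))
          · exact mem_union_right _ (mem_sdiff.1 h).1
      refine (sum_le_sum h2).trans ?_
      rw [← mul_sum]
      have h3 : ∑ P ∈ N.powerset, (2 * z) ^ P.card = (1 + 2 * z) ^ N.card := by
        have := Finset.sum_pow_mul_eq_add_pow (2 * z) 1 N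
        simp only [one_pow, mul_one] at this
        rw [this, add_comm]
      rw [h3]
      have h4 : (1 + 2 * z) ^ N.card ≤ 2 :=
        (pow_le_pow_right₀ (by linarith) hNcard).trans hΔ
      have hRpos : 0 < R.card := card_pos.2 ⟨r, hr⟩
      calc (2 : ℝ) ^ (R.card - 1) * (1 + 2 * z) ^ N.card ≤ 2 ^ (R.card - 1) * 2 :=
            mul_le_mul_of_nonneg_left h4 (by positivity)
        _ = 2 ^ R.card := by
            rw [← pow_succ]
            congr 1
            omega

/-- a convenient sufficient condition -/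
theorem pow_le_two {z : ℝ} {Δ : ℕ} (hz : 0 ≤ z) (h : 3 * z * Δ ≤ 1) : (1 + 2 * z) ^ Δ ≤ 2 := by
  have h1 : (1 + 2 * z) ^ Δ ≤ Real.exp (2 * z) ^ Δ :=
    pow_le_pow_left₀ (by linarith) (by linarith [Real.add_one_le_exp (2 * z)]) _
  refine h1.trans ?_
  rw [← Real.exp_nat_mul]
  have h2 : (Δ : ℝ) * (2 * z) ≤ 2 / 3 := by nlinarith
  refine (Real.exp_le_exp.2 h2).trans ?_
  have h3 : Real.exp (2 / 3) ^ 3 ≤ 8 := by
    rw [← Real.exp_nat_mul]
    have h4 : ((3 : ℕ) : ℝ) * (2 / 3) = 1 + 1 := by norm_num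
    rw [h4, Real.exp_add]
    nlinarith [Real.exp_one_lt_d9, Real.exp_pos 1]
  by_contra h5
  push Not at h5
  have h6 : (2 : ℝ) ^ 3 < Real.exp (2 / 3) ^ 3 := pow_lt_pow_left₀ h5 (by norm_num) (by norm_num)
  norm_num at h6
  linarith

/-- **M2**: connected sets which contain the non-empty set `g₀` -/
theorem sum_conn_sup_le {A : B → B → Prop} {z : ℝ} {Δ : ℕ} (hz : 0 ≤ z)
    (hzΔ : 3 * z * Δ ≤ 1) (L g₀ : Finset B) (h0 : g₀ ⊆ L) (hne : g₀.Nonempty)
    (hdeg : ∀ r ∈ L, ∀ N ⊆ L, (∀ x ∈ N, A r x) → N.card ≤ Δ) :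
    ∑ g ∈ (PolA A L).filter (fun g => g₀ ⊆ g), z ^ (g.card - g₀.card) ≤ 2 ^ g₀.card := by
  classical
  have h1 := sum_att_le (A := A) hz (pow_le_two hz hzΔ) _ g₀ (L \ g₀) le_rfl disjoint_sdiff ?_
  · refine le_trans ?_ h1
    refine sum_le_of_inj _ _ (fun g => g \ g₀) _ _ (fun p _ => by positivity) ?_ ?_ ?_
    · intro g hg
      rw [mem_filter, mem_PolA] at hg
      show g \ g₀ ∈ _
      rw [mem_AttS]
      refine ⟨sdiff_subset_sdiff hg.1.1 Subset.rfl, fun t ht => ?_⟩
      obtain ⟨r, hr⟩ := hne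
      refine ⟨r, hr, ?_⟩
      rw [union_sdiff_of_subset hg.2]
      exact hg.1.2.2 r (hg.2 hr) t (mem_sdiff.1 ht).1
    · intro g1 hg1 g2 hg2 h
      rw [mem_filter] at hg1 hg2
      have h2 : g1 \ g₀ = g2 \ g₀ := h
      rw [← sdiff_union_of_subset hg1.2, ← sdiff_union_of_subset hg2.2, h2]
    · intro g hg
      rw [mem_filter] at hg
      show z ^ (g.card - g₀.card) ≤ z ^ (g \ g₀).card
      rw [card_sdiff_of_subset hg.2]
  · intro r hr N hN hNA
    refine hdeg r ?_ N (hN.trans sdiff_subset) hNA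
    rcases mem_union.1 hr with h | h
    · exact h0 h
    · exact (mem_sdiff.1 h).1

/-- connected sets through one point -/
theorem sum_conn_pt_le {A : B → B → Prop} {z : ℝ} {Δ : ℕ} (hz : 0 ≤ z)
    (hzΔ : 3 * z * Δ ≤ 1) (L : Finset B) {b : B} (hb : b ∈ L)
    (hdeg : ∀ r ∈ L, ∀ N ⊆ L, (∀ x ∈ N, A r x) → N.card ≤ Δ) :
    ∑ g ∈ (PolA A L).filter (fun g => b ∈ g), z ^ g.card ≤ 2 * z := by
  classical
  have h1 := sum_conn_sup_le (A := A) hz hzΔ L {b} (singleton_subset_iff.2 hb)
    (singleton_nonempty b) hdeg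
  rw [card_singleton, pow_one] at h1
  have h2 : ∑ g ∈ (PolA A L).filter (fun g => b ∈ g), z ^ g.card =
      z * ∑ g ∈ (PolA A L).filter (fun g => {b} ⊆ g), z ^ (g.card - 1) := by
    rw [mul_sum]
    refine sum_congr ?_ fun g hg => ?_
    · ext g
      simp
    · rw [mem_filter, singleton_subset_iff] at hg
      have h3 : 0 < g.card := card_pos.2 ⟨b, hg.2⟩
      rw [← pow_succ']
      congr 1
      omega
  rw [h2]
  nlinarith

end Vale.Agent.P050.R2.H146
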