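import Vale.Agent.P050.R2.H146.Exact

set_option linter.all false

/-!
Dense targets: exact activities (M6), the structure of shortest cycles.
-/

open MeasureTheory Finset

namespace Vale.Agent.P050.Dense.M6

open Vale.Agent.P050
open Vale.Agent.P050.Dense

section comb

variable {V : Type*} [Fintype V] [DecidableEq V]

/-- a closed walk gives a short path between any two of its vertices -/
theorem exists_short_path {G : SimpleGraph V} {v : V} (w : G.Walk v v) {b b' : V}
    (hb : b ∈ w.support) (hb' : b' ∈ w.support) :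
    ∃ P : G.Walk b b', P.IsPath ∧ 2 * P.length ≤ w.length ∧ P.support ⊆ w.support := by
  set w' := w.rotate b hb with hw'
  have hlen : w'.length = w.length := by rw [hw', SimpleGraph.Walk.length_rotate]
  have hb'' : b' ∈ w'.support := (SimpleGraph.Walk.mem_support_rotate_iff w b hb).mpr hb'
  have hsub : w'.support ⊆ w.support := fun x hx =>
    (SimpleGraph.Walk.mem_support_rotate_iff w b hb).mp hx
  set w1 := w'.takeUntil b' hb'' with hw1
  set w2 := w'.dropUntil b' hb'' with hw2
  have hspec : w1.append w2 = w' := w'.take_spec hb''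
  have hlen12 : w1.length + w2.length = w'.length := by
    rw [← hspec, SimpleGraph.Walk.length_append]
  rcases le_total w1.length w2.length with h | h
  · refine ⟨w1.bypass, w1.bypass_isPath, ?_, ?_⟩
    · have := w1.length_bypass_le_length
      omega
    · intro x hx
      exact hsub (w'.support_takeUntil_subset_support hb'' (w1.support_bypass_subset_support hx))
  · refine ⟨w2.bypass.reverse, w2.bypass_isPath.reverse, ?_, ?_⟩
    · have := w2.length_bypass_le_length
      rw [SimpleGraph.Walk.length_reverse]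
      omega
    · intro x hx
      rw [SimpleGraph.Walk.support_reverse, List.mem_reverse] at hx
      exact hsub (w'.support_dropUntil_subset_support hb'' (w2.support_bypass_subset_support hx))

theorem mem_edg_iff {M : V → Finset V} {γ : Finset V} {u v : V} :
    s(u, v) ∈ edg M γ ↔ (u ∈ γ ∧ v ∈ M u) ∨ (v ∈ γ ∧ u ∈ M v) := by
  rw [mem_edg]
  constructor
  · rintro ⟨b, hb, a, ha, h⟩
    rw [Sym2.eq_iff] at h
    rcases h with ⟨rfl, rfl⟩ | ⟨rfl, rfl⟩
    · exact Or.inl ⟨hb, ha⟩
    · exact Or.inr ⟨hb, ha⟩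
  · rintro (⟨h, h'⟩ | ⟨h, h'⟩)
    · exact ⟨u, h, v, h', rfl⟩
    · exact ⟨v, h, u, h', Sym2.eq_swap⟩

theorem HG_eq (N : V → Finset V) (γ : Finset V) : HG N γ = gr (edg N γ) := by
  ext u v
  rw [gr_adj, mem_edg_iff]
  unfold HG
  rw [SimpleGraph.fromRel_adj]
  tauto

/-- a shortest cycle as a cyclic presentation -/
theorem cycPres_of_girth {F : Finset (Sym2 V)} (hloop : ∀ e ∈ F, ¬ e.IsDiag) {k : ℕ}
    (hk2 : 2 ≤ k) {a : V} {w : (gr F).Walk a a} (hw : w.IsCycle)
    (hlen : (gr F).girth = w.length) (hk : w.length = 2 * k) :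
    ∃ b p q, CycPres F k a b p q ∧ w.edges = pathEdges a p b ++ pathEdges b q a := by
  obtain ⟨m, hm1, hm2⟩ := walk_list w hw.not_nil
  have hmlen : m.length + 1 = w.length := by
    have := congrArg List.length hm1
    rw [SimpleGraph.Walk.length_support] at this
    simp only [List.cons_append, List.length_cons, List.length_append,
      List.length_nil] at this
    omega
  set p := m.take (k - 1) with hp
  have hpl : p.length = k - 1 := by rw [hp, List.length_take]; omega
  obtain ⟨b, q, hbq⟩ : ∃ b q, m.drop (k - 1) = b :: q := by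
    cases hh : m.drop (k - 1) with
    | nil =>
      have := congrArg List.length hh
      rw [List.length_drop] at this
      simp only [List.length_nil] at this
      omega
    | cons b q => exact ⟨b, q, rfl⟩
  have hql : q.length = k - 1 := by
    have := congrArg List.length hbq
    rw [List.length_drop, List.length_cons] at this
    omega
  have hm : m = p ++ b :: q := by rw [hp, ← hbq, List.take_append_drop]
  have hedges : w.edges = pathEdges a p b ++ pathEdges b q a := by
    rw [hm2, hm, pathEdges_append]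
  have hnd : (a :: p ++ b :: q).Nodup := by
    have h1 := hw.nodup_dropLast_support
    have h2 : w.support.dropLast = a :: m := by
      rw [hm1, List.dropLast_concat]
    rw [h2, hm] at h1
    exact h1
  have hsupp : ∀ u ∈ a :: p ++ b :: q, u ∈ w.support := by
    intro u hu
    rw [hm1, hm]
    exact List.mem_append_left _ hu
  refine ⟨b, p, q, ⟨by omega, by omega, by omega, hnd, ?_, ?_⟩, hedges⟩
  · intro e he
    rw [← hedges] at he
    exact mem_of_mem_edges w he
  · intro u hu v hv huv
    rw [← hedges]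
    apply chordless_girth hw hlen.symm (hsupp u hu) (hsupp v hv) huv
    intro h
    exact hloop _ huv (by simp [h])

/-- every vertex of the cycle has degree two -/
theorem dg_cyc {F : Finset (Sym2 V)} (hloop : ∀ e ∈ F, ¬ e.IsDiag) {k : ℕ} {a b : V}
    {p q : List V} (h : CycPres F k a b p q) :
    (∀ v, dg (cycEdges a b p q) v ≤ 2) ∧
      ∀ v ∈ supp (cycEdges a b p q), dg (cycEdges a b p q) v = 2 := by
  set C := cycEdges a b p q with hC
  have hCloop : ∀ e ∈ C, ¬ e.IsDiag := fun e he => hloop e (h.cycEdges_subset he)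
  have hlist : (a :: p ++ b :: q).toFinset ⊆ supp C := by
    intro v hv
    rw [List.mem_toFinset] at hv
    have h2 := h.self.two_le_dg hv
    by_contra h3
    rw [dg_eq_zero h3] at h2
    omega
  have hcardL : (a :: p ++ b :: q).toFinset.card = 2 * k := by
    rw [List.toFinset_card_of_nodup h.nodup]
    have := h.hp
    have := h.hq
    simp only [List.cons_append, List.length_cons, List.length_append]
    omega
  have hEq : (a :: p ++ b :: q).toFinset = supp C :=
    Finset.eq_of_subset_of_card_le hlist (by rw [hcardL]; exact h.supp_cycEdges)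
  have h2 : ∀ v ∈ supp C, 2 ≤ dg C v := by
    intro v hv
    rw [← hEq, List.mem_toFinset] at hv
    exact h.self.two_le_dg hv
  have hsum := sum_dg_supp hCloop
  rw [h.card_cycEdges] at hsum
  have hsum2 : ∑ _v ∈ supp C, 2 = ∑ v ∈ supp C, dg C v := by
    rw [hsum, Finset.sum_const, smul_eq_mul, ← hEq, hcardL]
    ring
  have h3 := (Finset.sum_eq_sum_iff_of_le h2).1 hsum2
  refine ⟨fun v => ?_, fun v hv => (h3 v hv).symm⟩
  by_cases hv : v ∈ supp C
  · rw [← h3 v hv]
  · rw [dg_eq_zero hv]; omega

/-- the structure of a shortest cycle -/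
theorem cyc_struct {N : V → Finset V} {B γ : Finset V} {D : ℕ} (hN : Bip N B D) (hγ : γ ⊆ B)
    {k : ℕ} (h : CycP N γ k) :
    (∀ b ∈ γ, 2 ≤ (sh N γ b).card) ∧
      (3 ≤ k → (∀ b ∈ γ, (sh N γ b).card = 2) ∧
        ∃ a b p q, CycPres (edg N γ) k a b p q ∧ edg (sh N γ) γ = cycEdges a b p q) := by
  unfold CycP GC at h
  rw [HG_eq] at h
  obtain ⟨F, hF⟩ : ∃ F, F = edg N γ := ⟨_, rfl⟩
  rw [← hF] at h ⊢
  have mem_edg' : ∀ {e : Sym2 V}, e ∈ F ↔ ∃ b ∈ γ, ∃ a ∈ N b, s(b, a) = e := by
    intro e; rw [hF]; exact mem_edg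
  have mem_edg_iff' : ∀ {u v : V}, s(u, v) ∈ F ↔ (u ∈ γ ∧ v ∈ N u) ∨ (v ∈ γ ∧ u ∈ N v) := by
    intro u v; rw [hF]; exact mem_edg_iff
  obtain ⟨hk, hcard, hGC, v, w, hw, hlen⟩ := h
  have hout : ∀ b ∈ γ, ∀ a ∈ N b, a ∉ γ := fun b hb a ha h => hN.out b (hγ hb) a ha (hγ h)
  have hloop : ∀ e ∈ F, ¬ e.IsDiag := by
    intro e he hd
    obtain ⟨b, hb, a, ha, rfl⟩ := mem_edg'.1 he
    rw [Sym2.mk_isDiag_iff] at hd
    subst hd
    exact hout b hb b ha hb
  have hnac : ¬ (gr F).IsAcyclic := fun hac => hac w hw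
  have hgirth : (gr F).girth = w.length := by
    apply le_antisymm (SimpleGraph.girth_le_length hw)
    obtain ⟨v', w', hw', hl'⟩ := SimpleGraph.exists_girth_eq_length.mpr hnac
    rw [hl', hlen]
    exact hGC v' w' hw'
  obtain ⟨b₀, p, q, hP, hedges⟩ := cycPres_of_girth hloop hk hw hgirth hlen
  set C := cycEdges v b₀ p q with hC
  have hCw : C = w.edges.toFinset := by rw [hedges]; rfl
  obtain ⟨hdg2, hdgs⟩ := dg_cyc hloop hP
  have hCF : C ⊆ F := hP.cycEdges_subset
  have hCcard : C.card = 2 * k := hP.card_cycEdges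
  -- the degrees at `γ`
  have hdgγ : ∀ b ∈ γ, dg C b = 2 := by
    have h1 : ∑ b ∈ γ, dg C b = ∑ e ∈ C, (γ.filter (fun b => b ∈ e)).card :=
      Finset.sum_card_bipartiteAbove_eq_sum_card_bipartiteBelow (fun b (e : Sym2 V) => b ∈ e)
        (s := γ) (t := C)
    have h2 : ∀ e ∈ C, (γ.filter (fun b => b ∈ e)).card = 1 := by
      intro e he
      obtain ⟨b, hb, a, ha, rfl⟩ := mem_edg'.1 (hCF he)
      rw [Finset.card_eq_one]
      refine ⟨b, ?_⟩
      ext x
      simp only [Finset.mem_filter, Sym2.mem_iff, Finset.mem_singleton]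
      constructor
      · rintro ⟨hx, rfl | rfl⟩
        · rfl
        · exact absurd hx (hout b hb x ha)
      · rintro rfl
        exact ⟨hb, Or.inl rfl⟩
    have h3 : ∑ b ∈ γ, dg C b = ∑ _b ∈ γ, 2 := by
      rw [h1, Finset.sum_congr rfl h2, Finset.sum_const, Finset.sum_const, hCcard, hcard]
      simp only [smul_eq_mul]
      ring
    exact fun b hb => (Finset.sum_eq_sum_iff_of_le (fun b _ => hdg2 b)).1 h3 b hb
  -- the neighbours in the cycle
  have hS : ∀ b ∈ γ, ((N b).filter (fun a => s(b, a) ∈ C)).card = 2 := by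
    intro b hb
    rw [← hdgγ b hb]
    unfold dg
    refine Finset.card_bij (fun a _ => s(b, a)) ?_ ?_ ?_
    · intro a ha
      rw [Finset.mem_filter] at ha ⊢
      exact ⟨ha.2, by simp⟩
    · intro a ha a' ha' haa
      rw [Sym2.eq_iff] at haa
      rcases haa with ⟨_, h⟩ | ⟨h, h'⟩
      · exact h
      · rw [← h, ← h']
    · intro e he
      rw [Finset.mem_filter] at he
      obtain ⟨b1, hb1, a1, ha1, rfl⟩ := mem_edg'.1 (hCF he.1)
      have hbb : b = b1 := by
        have := he.2
        rw [Sym2.mem_iff] at this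
        rcases this with h | h
        · exact h
        · exact absurd hb (h ▸ hout b1 hb1 a1 ha1)
      subst hbb
      exact ⟨a1, Finset.mem_filter.2 ⟨ha1, he.1⟩, rfl⟩
  have hSsh : ∀ b ∈ γ, (N b).filter (fun a => s(b, a) ∈ C) ⊆ sh N γ b := by
    intro b hb a ha
    rw [Finset.mem_filter] at ha
    unfold sh
    rw [Finset.mem_filter]
    refine ⟨ha.1, ?_⟩
    have has : a ∈ supp C := mem_supp.2 ⟨_, ha.2, by simp⟩
    have h2 : dg C a = 2 := hdgs a has
    have h3' : 1 < dg C a := by omega
    have h3 : 1 < (C.filter (fun e => a ∈ e)).card := h3'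
    obtain ⟨e, he, hne⟩ := Finset.exists_mem_ne h3 s(b, a)
    rw [Finset.mem_filter] at he
    obtain ⟨b1, hb1, a1, ha1, rfl⟩ := mem_edg'.1 (hCF he.1)
    have haa : a = a1 := by
      have := he.2
      rw [Sym2.mem_iff] at this
      rcases this with h | h
      · exact absurd hb1 (h ▸ hout b hb a ha.1)
      · exact h
    subst haa
    refine ⟨b1, hb1, ?_, ha1⟩
    rintro rfl
    exact hne rfl
  refine ⟨fun b hb => ?_, fun hk3 => ?_⟩
  · rw [← hS b hb]
    exact Finset.card_le_card (hSsh b hb)
  · -- shared neighbours are on the cycle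
    have hws : ∀ b ∈ γ, b ∈ w.support := by
      intro b hb
      have hbs : b ∈ supp C := by
        by_contra h3
        have := hdgγ b hb
        rw [dg_eq_zero h3] at this
        omega
      obtain ⟨e, he, hbe⟩ := mem_supp.1 hbs
      rw [hCw, List.mem_toFinset] at he
      obtain ⟨x, rfl⟩ := Sym2.mem_iff_exists.1 hbe
      exact SimpleGraph.Walk.fst_mem_support_of_mem_edges w he
    have hshC : ∀ b ∈ γ, ∀ a ∈ sh N γ b, s(b, a) ∈ C := by
      intro b hb a ha
      unfold sh at ha
      rw [Finset.mem_filter] at ha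
      obtain ⟨haN, b', hb', hne, haN'⟩ := ha
      have hbaF : s(b, a) ∈ F := mem_edg_iff'.2 (Or.inl ⟨hb, haN⟩)
      have hab : a ≠ b := by rintro rfl; exact hout a hb a haN hb
      have hab' : a ≠ b' := by rintro rfl; exact hout a hb' a haN' hb'
      by_cases haw : a ∈ w.support
      · rw [hCw, List.mem_toFinset]
        exact chordless_girth hw hgirth.symm (hws b hb) haw hbaF (Ne.symm hab)
      · exfalso
        obtain ⟨P, hPp, hPl, hPs⟩ := exists_short_path w (hws b hb) (hws b' hb')
        have haP : a ∉ P.support := fun h => haw (hPs h)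
        have hadj : (gr F).Adj a b := gr_adj.2 ⟨by rw [Sym2.eq_swap]; exact hbaF, hab⟩
        have hadj' : (gr F).Adj b' a :=
          gr_adj.2 ⟨mem_edg_iff'.2 (Or.inl ⟨hb', haN'⟩), Ne.symm hab'⟩
        have hcyc : (SimpleGraph.Walk.cons hadj' (SimpleGraph.Walk.cons hadj P)).IsCycle := by
          rw [SimpleGraph.Walk.cons_isCycle_iff, SimpleGraph.Walk.cons_isPath_iff]
          refine ⟨⟨hPp, haP⟩, ?_⟩
          rw [SimpleGraph.Walk.edges_cons, List.mem_cons, not_or]
          constructor
          · intro h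
            rw [Sym2.eq_iff] at h
            rcases h with ⟨h1, h2⟩ | ⟨h1, h2⟩
            · exact hab' h1.symm
            · exact hne h1
          · intro h
            rw [Sym2.eq_swap] at h
            exact haP (SimpleGraph.Walk.fst_mem_support_of_mem_edges P h)
        have h4 := hGC _ _ hcyc
        simp only [SimpleGraph.Walk.length_cons] at h4
        omega
    have hSeq : ∀ b ∈ γ, (N b).filter (fun a => s(b, a) ∈ C) = sh N γ b := by
      intro b hb
      apply Finset.Subset.antisymm (hSsh b hb)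
      intro a ha
      rw [Finset.mem_filter]
      exact ⟨sh_subset N γ b ha, hshC b hb a ha⟩
    refine ⟨fun b hb => by rw [← hSeq b hb]; exact hS b hb, v, b₀, p, q, hP, ?_⟩
    ext e
    constructor
    · intro he
      obtain ⟨b, hb, a, ha, rfl⟩ := mem_edg.1 he
      exact hshC b hb a ha
    · intro he
      obtain ⟨b, hb, a, ha, rfl⟩ := mem_edg'.1 (hCF he)
      refine mem_edg.2 ⟨b, hb, a, hSsh b hb ?_, rfl⟩
      rw [Finset.mem_filter]
      exact ⟨ha, he⟩

end comb

section

variable {V : Type*} [Fintype V] [DecidableEq V] {Ω : Type*} [MeasurableSpace Ω]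
variable (μ : Measure Ω) [IsProbabilityMeasure μ] {U : Sym2 Ω → ℝ} {κ η : ℝ}

/-- the activity of a shortest cycle is at least the density of the cycle -/
theorem _root_.Vale.Agent.P050.Dense.ck_le_phi {N : V → Finset V} {B γ : Finset V} {D : ℕ} (hN : Bip N B D)
    (hU : Ker μ U κ η) (hγ : γ ⊆ B) {k : ℕ} (h : CycP N γ k) : ck μ U k ≤ phi μ U N γ := by
  obtain ⟨h1, h2⟩ := cyc_struct hN hγ h
  rcases Nat.lt_or_ge 2 k with hk | hk
  · obtain ⟨h3, a, b, p, q, hP, hE⟩ := h2 hk
    rw [phi_eq_w μ hN hU hγ h3, hE, w_cyc μ hU.good hP]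
  · have hk2 : k = 2 := le_antisymm hk h.1
    subst hk2
    exact ck_two_le μ hU hN hγ h.2.1 h1

end

end Vale.Agent.P050.Dense.M6
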