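import Vale.Agent.P050.R2.H300.Basic

set_option linter.all false

/-!
Dense targets: exact activities (M6). Activities with a vertex which has at most one shared
neighbour vanish, and the activity of a shortest cycle is at least the density of the cycle.
-/

open MeasureTheory Finset

namespace Vale.Agent.P050.Dense.M6

open Vale.Agent.P050
open Vale.Agent.P050.Dense

section

variable {V : Type*} [Fintype V] [DecidableEq V] {Ω : Type*} [MeasurableSpace Ω]
variable (μ : Measure Ω) [IsProbabilityMeasure μ] {U : Sym2 Ω → ℝ} {κ η : ℝ}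

/-- private neighbours of `b` can be dropped -/
theorem int_Phi_drop (hU : Ker μ U κ η) (N : V → Finset V) {b : V} (hb : b ∉ N b)
    {f : (V → Ω) → ℝ} (hf : BM f) (hfb : Ind b f) (P : Finset V) (hP : P ⊆ N b)
    (hfP : ∀ a ∈ P, Ind a f) :
    ∫ z, f z * Phi μ U N ∅ b z ∂(piM V μ) = ∫ z, f z * Phi μ U N P b z ∂(piM V μ) := by
  induction P using Finset.induction_on with
  | empty => rfl
  | insert a P ha ih =>
    have haN : a ∈ N b := hP (Finset.mem_insert_self _ _)
    have hab : a ≠ b := by rintro rfl; exact hb haN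
    rw [ih ((Finset.subset_insert _ _).trans hP)
      (fun c hc => hfP c (Finset.mem_insert_of_mem hc))]
    have hsplit : ∀ z : V → Ω, f z * Phi μ U N P b z = f z * Phi μ U N (insert a P) b z +
        f z * ∫ y, U s(z a, y) * ∏ c ∈ N b \ insert a P, (1 + U s(z c, y)) ∂μ := by
      intro z
      rw [Phi_split μ hU N P haN ha z]
      ring
    have hh : BM (fun q : (V → Ω) × Ω => U s(q.1 a, q.2) *
        ∏ c ∈ N b \ insert a P, (1 + U s(q.1 c, q.2))) :=
      (hU.good.bm_two.comp (g := fun q : (V → Ω) × Ω => (q.1 a, q.2)) (by fun_prop)).mul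
        (bm_prod hU.good _)
    have hb2 : BM (fun z : V → Ω => f z * ∫ y, U s(z a, y) *
        ∏ c ∈ N b \ insert a P, (1 + U s(z c, y)) ∂μ) :=
      hf.mul (hh.integral_right μ)
    simp only [hsplit]
    rw [integral_add ((hf.mul (bm_Phi μ hU.good N (insert a P) b)).integrable _)
      (hb2.integrable _)]
    rw [int_fresh μ (v := b) hf hfb (h := fun z y => U s(z a, y) *
        ∏ c ∈ N b \ insert a P, (1 + U s(z c, y))) hh]
    · have e : ∀ z : V → Ω, f z * (U s(z a, z b) * ∏ c ∈ N b \ insert a P, (1 + U s(z c, z b))) =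
          U s(z b, z a) * (f z * ∏ c ∈ N b \ insert a P, (1 + U s(z c, z b))) := by
        intro z
        have : s(z a, z b) = s(z b, z a) := Sym2.eq_swap
        rw [this]
        ring
      simp only [e]
      rw [int_edge_zero μ hU (Ne.symm hab) (hf.mul (bm_prod_v hU.good _ b))]
      · rw [add_zero]
      · intro x t
        beta_reduce
        rw [hfP a (Finset.mem_insert_self _ _) x t, Function.update_of_ne (Ne.symm hab)]
        congr 1
        refine Finset.prod_congr rfl fun c hc => ?_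
        have hca : c ≠ a := by
          rintro rfl
          simp at hc
        rw [Function.update_of_ne hca]
    · intro z t y
      have hc : ∀ c ∈ N b \ insert a P, c ≠ b := by
        rintro c hc rfl
        exact hb (Finset.mem_sdiff.1 hc).1
      rw [Function.update_of_ne hab]
      congr 1
      refine Finset.prod_congr rfl fun c hc' => ?_
      rw [Function.update_of_ne (hc c hc')]

/-- all private neighbours can be dropped -/
theorem phi_sh {N : V → Finset V} {B γ : Finset V} {D : ℕ} (hN : Bip N B D) (hU : Ker μ U κ η)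
    (hγ : γ ⊆ B) :
    phi μ U N γ = ∫ z, ∏ b ∈ γ, Phi μ U N (N b \ sh N γ b) b z ∂(piM V μ) := by
  have key : ∀ T : Finset V, T ⊆ γ → phi μ U N γ =
      ∫ z, ∏ b ∈ γ, Phi μ U N (if b ∈ T then N b \ sh N γ b else ∅) b z ∂(piM V μ) := by
    intro T
    induction T using Finset.induction_on with
    | empty => intro _; simp [phi]
    | insert b₀ T hb₀ ih =>
      intro hT
      have hb₀γ : b₀ ∈ γ := hT (Finset.mem_insert_self _ _)
      rw [ih ((Finset.subset_insert _ _).trans hT)]
      set f : (V → Ω) → ℝ := fun z => ∏ b ∈ γ.erase b₀,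
        Phi μ U N (if b ∈ T then N b \ sh N γ b else ∅) b z with hf
      have hfbm : BM f := BM.finprod _ fun b _ => bm_Phi μ hU.good N _ b
      have e1 : ∀ z : V → Ω, ∏ b ∈ γ, Phi μ U N (if b ∈ T then N b \ sh N γ b else ∅) b z =
          f z * Phi μ U N ∅ b₀ z := by
        intro z
        rw [← Finset.mul_prod_erase γ _ hb₀γ, if_neg hb₀, mul_comm]
      have e2 : ∀ z : V → Ω,
          ∏ b ∈ γ, Phi μ U N (if b ∈ insert b₀ T then N b \ sh N γ b else ∅) b z =
          f z * Phi μ U N (N b₀ \ sh N γ b₀) b₀ z := by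
        intro z
        rw [← Finset.mul_prod_erase γ _ hb₀γ, if_pos (Finset.mem_insert_self _ _), mul_comm]
        congr 1
        refine Finset.prod_congr rfl fun b hb => ?_
        have : b ≠ b₀ := (Finset.mem_erase.1 hb).1
        simp only [Finset.mem_insert, this, false_or]
      simp only [e1, e2]
      refine int_Phi_drop μ hU N (fun h => hN.out b₀ (hγ hb₀γ) b₀ h (hγ hb₀γ)) hfbm ?_ _
        Finset.sdiff_subset ?_
      · intro x t
        simp only [hf]
        refine Finset.prod_congr rfl fun b hb => ?_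
        refine Phi_ind μ N _ b ?_ x t
        intro h
        exact hN.out b (hγ (Finset.mem_erase.1 hb).2) b₀ (Finset.mem_sdiff.1 h).1 (hγ hb₀γ)
      · intro a ha x t
        simp only [hf]
        refine Finset.prod_congr rfl fun b hb => ?_
        refine Phi_ind μ N _ b ?_ x t
        intro h
        rw [Finset.mem_sdiff] at ha
        refine ha.2 ?_
        unfold sh
        rw [Finset.mem_filter]
        exact ⟨ha.1, b, (Finset.mem_erase.1 hb).2, (Finset.mem_erase.1 hb).1,
          (Finset.mem_sdiff.1 h).1⟩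
  rw [key γ (Finset.Subset.refl _)]
  congr 1
  ext z
  refine Finset.prod_congr rfl fun b hb => ?_
  rw [if_pos hb]

theorem sh_subset (N : V → Finset V) (γ : Finset V) (b : V) : sh N γ b ⊆ N b :=
  Finset.filter_subset _ _

theorem sdiff_sh (N : V → Finset V) (γ : Finset V) (b : V) :
    N b \ (N b \ sh N γ b) = sh N γ b := by
  rw [Finset.sdiff_sdiff_eq_self (sh_subset N γ b)]

/-- an activity vanishes if some vertex has at most one shared neighbour -/
theorem _root_.Vale.Agent.P050.Dense.phi_eq_zero {N : V → Finset V} {B γ : Finset V} {D : ℕ} (hN : Bip N B D)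
    (hU : Ker μ U κ η) (hγ : γ ⊆ B) (h : ¬ Thick N γ) : phi μ U N γ = 0 := by
  rw [phi_sh μ hN hU hγ]
  unfold Thick at h
  push Not at h
  obtain ⟨b, hb, hlt⟩ := h
  have h0 : ∀ z : V → Ω, ∏ b ∈ γ, Phi μ U N (N b \ sh N γ b) b z = 0 := by
    intro z
    refine Finset.prod_eq_zero hb ?_
    refine Phi_eq_zero μ hU N _ ?_ z
    rw [sdiff_sh]
    omega
  simp only [h0, integral_zero]

/-- with exactly two neighbours left, the linear terms vanish -/
theorem Phi_two (hU : Ker μ U κ η) (N : V → Finset V) (S : Finset V) {b : V}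
    (h : (N b \ S).card = 2) (z : V → Ω) :
    Phi μ U N S b z = ∫ y, ∏ a ∈ N b \ S, U s(z a, y) ∂μ := by
  unfold Phi
  obtain ⟨a, a', haa, hE⟩ := Finset.card_eq_two.1 h
  rw [hE]
  simp only [Finset.prod_pair haa]
  have b1 : BM (fun y : Ω => U s(z a, y)) :=
    hU.good.bm_two.comp (g := fun y : Ω => (z a, y)) (by fun_prop)
  have b2 : BM (fun y : Ω => U s(z a', y)) :=
    hU.good.bm_two.comp (g := fun y : Ω => (z a', y)) (by fun_prop)
  have e : ∀ y : Ω, (1 + U s(z a, y)) * (1 + U s(z a', y)) - 1 =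
      (U s(z a, y) + U s(z a', y)) + U s(z a, y) * U s(z a', y) := by intro y; ring
  simp only [e]
  rw [integral_add ((b1.add b2).integrable _) ((b1.mul b2).integrable _),
    integral_add (b1.integrable _) (b2.integrable _)]
  have z1 : ∫ y, U s(z a, y) ∂μ = 0 := hU.zero (z a)
  have z2 : ∫ y, U s(z a', y) ∂μ = 0 := hU.zero (z a')
  rw [z1, z2]
  ring

/-- inner integrals become coordinates -/
theorem int_prod_fresh (γ : Finset V) {h : V → (V → Ω) → Ω → ℝ}
    (hh : ∀ b ∈ γ, BM (fun q : (V → Ω) × Ω => h b q.1 q.2))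
    (hhi : ∀ b ∈ γ, ∀ b' ∈ γ, ∀ z t y, h b (Function.update z b' t) y = h b z y) :
    ∀ {f : (V → Ω) → ℝ}, BM f → (∀ b ∈ γ, Ind b f) →
      ∫ z, f z * ∏ b ∈ γ, (∫ y, h b z y ∂μ) ∂(piM V μ) =
        ∫ z, f z * ∏ b ∈ γ, h b z (z b) ∂(piM V μ) := by
  induction γ using Finset.induction_on with
  | empty => intro f _ _; simp
  | insert b₀ γ hb₀ ih =>
    intro f hf hfi
    have hh' : ∀ b ∈ γ, BM (fun q : (V → Ω) × Ω => h b q.1 q.2) :=
      fun b hb => hh b (Finset.mem_insert_of_mem hb)
    have hh0 : BM (fun q : (V → Ω) × Ω => h b₀ q.1 q.2) := hh b₀ (Finset.mem_insert_self _ _)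
    have hI : ∀ b ∈ γ, BM (fun z : V → Ω => ∫ y, h b z y ∂μ) :=
      fun b hb => (hh' b hb).integral_right μ
    simp only [Finset.prod_insert hb₀]
    have e1 : ∀ z : V → Ω, f z * ((∫ y, h b₀ z y ∂μ) * ∏ b ∈ γ, ∫ y, h b z y ∂μ) =
        (f z * ∏ b ∈ γ, ∫ y, h b z y ∂μ) * ∫ y, h b₀ z y ∂μ := by intro z; ring
    simp only [e1]
    rw [int_fresh μ (v := b₀) (f := fun z => f z * ∏ b ∈ γ, ∫ y, h b z y ∂μ)
      (hf.mul (BM.finprod _ hI)) ?_ (h := fun z y => h b₀ z y) hh0 ?_]
    · have e2 : ∀ z : V → Ω, (f z * ∏ b ∈ γ, ∫ y, h b z y ∂μ) * h b₀ z (z b₀) =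
          (f z * h b₀ z (z b₀)) * ∏ b ∈ γ, ∫ y, h b z y ∂μ := by intro z; ring
      simp only [e2]
      rw [ih hh' (fun b hb b' hb' => hhi b (Finset.mem_insert_of_mem hb) b'
        (Finset.mem_insert_of_mem hb')) (f := fun z => f z * h b₀ z (z b₀))]
      · congr 1
        ext z
        ring
      · exact hf.mul (hh0.comp (g := fun z : V → Ω => (z, z b₀)) (by fun_prop))
      · intro b hb x t
        have hne : b₀ ≠ b := by rintro rfl; exact hb₀ hb
        simp only []
        rw [hfi b (Finset.mem_insert_of_mem hb) x t, Function.update_of_ne hne,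
          hhi b₀ (Finset.mem_insert_self _ _) b (Finset.mem_insert_of_mem hb)]
    · intro x t
      simp only []
      rw [hfi b₀ (Finset.mem_insert_self _ _) x t]
      congr 1
      refine Finset.prod_congr rfl fun b hb => ?_
      congr 1
      ext y
      exact hhi b (Finset.mem_insert_of_mem hb) b₀ (Finset.mem_insert_self _ _) x t y
    · intro z t y
      exact hhi b₀ (Finset.mem_insert_self _ _) b₀ (Finset.mem_insert_self _ _) z t y

/-- the edges at the vertices of `γ`, with neighbour sets `M` -/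
def edg (M : V → Finset V) (γ : Finset V) : Finset (Sym2 V) :=
  γ.biUnion (fun b => (M b).image (fun a => s(b, a)))

theorem mem_edg {M : V → Finset V} {γ : Finset V} {e : Sym2 V} :
    e ∈ edg M γ ↔ ∃ b ∈ γ, ∃ a ∈ M b, s(b, a) = e := by
  unfold edg
  simp only [Finset.mem_biUnion, Finset.mem_image]

/-- the activity when every vertex has exactly two shared neighbours -/
theorem phi_eq_w {N : V → Finset V} {B γ : Finset V} {D : ℕ} (hN : Bip N B D)
    (hU : Ker μ U κ η) (hγ : γ ⊆ B) (h2 : ∀ b ∈ γ, (sh N γ b).card = 2) :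
    phi μ U N γ = w μ U (edg (sh N γ) γ) := by
  rw [phi_sh μ hN hU hγ]
  have e1 : ∀ z : V → Ω, ∏ b ∈ γ, Phi μ U N (N b \ sh N γ b) b z =
      1 * ∏ b ∈ γ, ∫ y, ∏ a ∈ sh N γ b, U s(z a, y) ∂μ := by
    intro z
    rw [one_mul]
    refine Finset.prod_congr rfl fun b hb => ?_
    rw [Phi_two μ hU N _ (by rw [sdiff_sh]; exact h2 b hb) z, sdiff_sh]
  simp only [e1]
  have hout : ∀ b ∈ γ, ∀ b' ∈ γ, b' ∉ N b := fun b hb b' hb' h =>
    hN.out b (hγ hb) b' h (hγ hb')
  rw [int_prod_fresh μ γ (h := fun b z y => ∏ a ∈ sh N γ b, U s(z a, y)) ?_ ?_ (BM.const 1)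
    (fun b _ x t => rfl)]
  · unfold w wt
    congr 1
    ext z
    rw [one_mul]
    unfold edg
    rw [Finset.prod_biUnion]
    · refine Finset.prod_congr rfl fun b hb => ?_
      rw [Finset.prod_image]
      · refine Finset.prod_congr rfl fun a _ => ?_
        rw [Sym2.map_mk, Sym2.eq_swap]
      · intro a _ a' _ haa
        simp only [Sym2.eq_iff, true_and] at haa
        rcases haa with rfl | ⟨h, h'⟩
        · rfl
        · rw [← h, ← h']
    · intro b hb b' hb' hne
      rw [Function.onFun, Finset.disjoint_left]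
      intro e he he'
      rw [Finset.mem_image] at he he'
      obtain ⟨a, ha, rfl⟩ := he
      obtain ⟨a', ha', hee⟩ := he'
      rw [Sym2.eq_iff] at hee
      rcases hee with ⟨h, _⟩ | ⟨h, h'⟩
      · exact hne h.symm
      · exact hout b hb b' hb' (h ▸ sh_subset N γ b ha)
  · intro b _
    exact BM.finprod _ fun a _ =>
      hU.good.bm_two.comp (g := fun q : (V → Ω) × Ω => (q.1 a, q.2)) (by fun_prop)
  · intro b hb b' hb' z t y
    refine Finset.prod_congr rfl fun a ha => ?_
    have : a ≠ b' := by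
      rintro rfl
      exact hout b hb a hb' (sh_subset N γ b ha)
    rw [Function.update_of_ne this]

/-! ### two vertices -/

/-- the kernel of paths of length two -/
noncomputable def T2 (μ : Measure Ω) (U : Sym2 Ω → ℝ) (s t : Ω) : ℝ :=
  ∫ x, two U s x * two U t x ∂μ

theorem bm_T2 (hU : Good U 1) : BM (fun p : Ω × Ω => T2 μ U p.1 p.2) := by
  have h1 : BM (fun r : (Ω × Ω) × Ω => two U r.1.1 r.2) :=
    hU.bm_two.comp (g := fun r : (Ω × Ω) × Ω => (r.1.1, r.2)) (by fun_prop)
  have h2 : BM (fun r : (Ω × Ω) × Ω => two U r.1.2 r.2) :=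
    hU.bm_two.comp (g := fun r : (Ω × Ω) × Ω => (r.1.2, r.2)) (by fun_prop)
  exact (h1.mul h2).integral_right μ

theorem bm_T2v (hU : Good U 1) (b b' : V) : BM (fun z : V → Ω => T2 μ U (z b) (z b')) :=
  (bm_T2 μ hU).comp (g := fun z : V → Ω => (z b, z b')) (by fun_prop)

theorem abs_T2_le (hU : Good U 1) (s t : Ω) : |T2 μ U s t| ≤ 1 := by
  unfold T2
  have h := norm_integral_le_of_norm_le_const (μ := μ) (f := fun x => two U s x * two U t x)
    (C := 1) (Filter.Eventually.of_forall fun x => by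
      rw [norm_mul]
      have h1 : ‖two U s x‖ ≤ 1 := hU.bdd _
      have h2 : ‖two U t x‖ ≤ 1 := hU.bdd _
      calc ‖two U s x‖ * ‖two U t x‖ ≤ 1 * 1 := mul_le_mul h1 h2 (norm_nonneg _) zero_le_one
        _ = 1 := one_mul _)
  simpa only [Real.norm_eq_abs, probReal_univ, mul_one] using h

theorem ck_two_eq (hU : Good U 1) : ck μ U 2 = ∫ s, ∫ t, T2 μ U s t ^ 2 ∂μ ∂μ := by
  unfold ck
  congr 1
  ext s
  congr 1
  ext t
  congr 1
  have : List.replicate (2 - 1) (fun _ : Ω => (1:ℝ)) = [fun _ => 1] := rfl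
  rw [this]
  simp only [kern, mul_one]
  unfold T2
  congr 1
  ext y
  rw [two_symm U y t]

theorem int_T2 (hU : Ker μ U κ η) : ∫ s, ∫ t, T2 μ U s t ∂μ ∂μ = 0 := by
  have h : ∀ s, ∫ t, T2 μ U s t ∂μ = 0 := by
    intro s
    unfold T2
    rw [integral_integral_swap]
    · have e : ∀ x, ∫ t, two U s x * two U t x ∂μ = 0 := by
        intro x
        rw [integral_const_mul]
        have : ∫ t, two U t x ∂μ = 0 := by
          simp only [two_symm U _ x]
          exact hU.zero x
        rw [this, mul_zero]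
      simp only [e, integral_zero]
    · have h1 : BM (fun r : Ω × Ω => two U s r.2) :=
        hU.good.bm_two.comp (g := fun r : Ω × Ω => (s, r.2)) (by fun_prop)
      have h2 : BM (fun r : Ω × Ω => two U r.1 r.2) := hU.good.bm_two
      exact (h1.mul h2).integrable _
  simp only [h, integral_zero]

theorem int_pair (hU : Ker μ U κ η) (s t : Ω) :
    ∫ x, (1 + U s(x, s)) * (1 + U s(x, t)) ∂μ = 1 + T2 μ U s t := by
  have b1 : BM (fun x : Ω => two U s x) :=
    hU.good.bm_two.comp (g := fun x : Ω => (s, x)) (by fun_prop)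
  have b2 : BM (fun x : Ω => two U t x) :=
    hU.good.bm_two.comp (g := fun x : Ω => (t, x)) (by fun_prop)
  have e : ∀ x : Ω, (1 + U s(x, s)) * (1 + U s(x, t)) =
      ((1 + two U s x) + two U t x) + two U s x * two U t x := by
    intro x
    have h1 : U s(x, s) = two U s x := by unfold two; rw [Sym2.eq_swap]
    have h2 : U s(x, t) = two U t x := by unfold two; rw [Sym2.eq_swap]
    rw [h1, h2]
    ring
  simp only [e]
  rw [integral_add ((((BM.const 1).add b1).add b2).integrable _) ((b1.mul b2).integrable _),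
    integral_add (((BM.const 1).add b1).integrable _) (b2.integrable _),
    integral_add ((BM.const 1).integrable _) (b1.integrable _), hU.zero s, hU.zero t]
  simp [T2]

/-- the factors at a common neighbour are integrated out -/
theorem int_pairs (hU : Ker μ U κ η) {b b' : V} (M : Finset V) (hb : b ∉ M) (hb' : b' ∉ M) :
    ∀ {f : (V → Ω) → ℝ}, BM f → (∀ a ∈ M, Ind a f) →
    ∫ z, (∏ a ∈ M, ((1 + U s(z a, z b)) * (1 + U s(z a, z b')))) * f z ∂(piM V μ) =
      ∫ z, (1 + T2 μ U (z b) (z b')) ^ M.card * f z ∂(piM V μ) := by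
  induction M using Finset.induction_on with
  | empty => intro f _ _; simp
  | insert a M ha ih =>
    intro f hf hfi
    rw [Finset.mem_insert, not_or] at hb hb'
    set g : (V → Ω) → ℝ := fun z =>
      (∏ a ∈ M, ((1 + U s(z a, z b)) * (1 + U s(z a, z b')))) * f z with hg
    have bu : ∀ u v : V, BM (fun z : V → Ω => 1 + U s(z u, z v)) :=
      fun u v => (BM.const 1).add (bm_U hU.good u v)
    have hgbm : BM g :=
      (BM.finprod _ fun a _ => (bu a b).mul (bu a b')).mul hf
    have hgi : Ind a g := by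
      intro x t
      simp only [hg]
      rw [hfi a (Finset.mem_insert_self _ _) x t]
      congr 1
      refine Finset.prod_congr rfl fun c hc => ?_
      have hca : c ≠ a := by rintro rfl; exact ha hc
      rw [Function.update_of_ne hca, Function.update_of_ne hb.1, Function.update_of_ne hb'.1]
    have e1 : ∀ z : V → Ω,
        (∏ a ∈ insert a M, ((1 + U s(z a, z b)) * (1 + U s(z a, z b')))) * f z =
        ((1 + U s(z a, z b)) * (1 + U s(z a, z b'))) * g z := by
      intro z
      rw [Finset.prod_insert ha]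
      simp only [hg]
      ring
    simp only [e1]
    rw [integral_update μ a (((bu a b).mul (bu a b')).mul hgbm)]
    have e2 : ∀ x : V → Ω, ∫ y, ((1 + U s(Function.update x a y a, Function.update x a y b)) *
        (1 + U s(Function.update x a y a, Function.update x a y b'))) *
        g (Function.update x a y) ∂μ = (1 + T2 μ U (x b) (x b')) * g x := by
      intro x
      simp only [Function.update_self, Function.update_of_ne hb.1, Function.update_of_ne hb'.1,
        hgi x]
      rw [integral_mul_const, int_pair μ hU]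
    simp only [e2]
    have e3 : ∀ x : V → Ω, (1 + T2 μ U (x b) (x b')) * g x =
        (∏ a ∈ M, ((1 + U s(x a, x b)) * (1 + U s(x a, x b')))) *
          ((1 + T2 μ U (x b) (x b')) * f x) := by
      intro x
      simp only [hg]
      ring
    simp only [e3]
    rw [ih hb.2 hb'.2 (f := fun x => (1 + T2 μ U (x b) (x b')) * f x)
      (((BM.const 1).add (bm_T2v μ hU.good b b')).mul hf) ?_]
    · rw [Finset.card_insert_of_notMem ha]
      congr 1
      ext x
      rw [pow_succ]
      ring
    · intro c hc x t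
      beta_reduce
      have hcb : b ≠ c := by rintro rfl; exact hb.2 hc
      have hcb' : b' ≠ c := by rintro rfl; exact hb'.2 hc
      rw [hfi c (Finset.mem_insert_of_mem hc) x t, Function.update_of_ne hcb,
        Function.update_of_ne hcb']

theorem int_singles (hU : Ker μ U κ η) {b : V} (M : Finset V) (hb : b ∉ M) :
    ∫ z : V → Ω, ∏ a ∈ M, (1 + U s(z a, z b)) ∂(piM V μ) = 1 := by
  induction M using Finset.induction_on with
  | empty => simp
  | insert a M ha ih =>
    rw [Finset.mem_insert, not_or] at hb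
    have e1 : ∀ z : V → Ω, ∏ a ∈ insert a M, (1 + U s(z a, z b)) =
        (∏ a ∈ M, (1 + U s(z a, z b))) + U s(z b, z a) * ∏ a ∈ M, (1 + U s(z a, z b)) := by
      intro z
      have : s(z b, z a) = s(z a, z b) := Sym2.eq_swap
      rw [Finset.prod_insert ha, this]
      ring
    simp only [e1]
    rw [integral_add ((bm_prod_v hU.good M b).integrable _)
      (((bm_U hU.good b a).mul (bm_prod_v hU.good M b)).integrable _), ih hb.2,
      int_edge_zero μ hU hb.1 (bm_prod_v hU.good M b), add_zero]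
    intro x t
    beta_reduce
    refine Finset.prod_congr rfl fun c hc => ?_
    have hca : c ≠ a := by rintro rfl; exact ha hc
    rw [Function.update_of_ne hca, Function.update_of_ne hb.1]

theorem pow_ge_quad {T : ℝ} (hT : -1 ≤ T) {m : ℕ} (hm : 2 ≤ m) :
    1 + m * T + T ^ 2 ≤ (1 + T) ^ m := by
  induction m, hm using Nat.le_induction with
  | base => push_cast; nlinarith
  | succ m hm ih =>
    have hm' : (2:ℝ) ≤ m := by exact_mod_cast hm
    have h1 : (1 + m * T + T ^ 2) * (1 + T) ≤ (1 + T) ^ m * (1 + T) :=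
      mul_le_mul_of_nonneg_right ih (by linarith)
    rw [pow_succ]
    refine le_trans ?_ h1
    push_cast
    have h2 : 0 ≤ T ^ 2 * (m + T) := mul_nonneg (sq_nonneg _) (by linarith)
    nlinarith

/-- the activity of two vertices with `m ≥ 2` common neighbours -/
theorem ck_two_le (hU : Ker μ U κ η) {N : V → Finset V} {B γ : Finset V} {D : ℕ}
    (hN : Bip N B D) (hγ : γ ⊆ B) (hc : γ.card = 2) (hth : ∀ b ∈ γ, 2 ≤ (sh N γ b).card) :
    ck μ U 2 ≤ phi μ U N γ := by
  obtain ⟨b, b', hbb, rfl⟩ := Finset.card_eq_two.1 hc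
  have hbB : b ∈ B := hγ (by simp)
  have hbB' : b' ∈ B := hγ (by simp)
  rw [phi_sh μ hN hU hγ]
  have hM : sh N {b, b'} b' = sh N {b, b'} b := by
    ext a
    unfold sh
    simp only [Finset.mem_filter, Finset.mem_insert, Finset.mem_singleton]
    constructor
    · rintro ⟨h1, c, rfl | rfl, h2, h3⟩
      · exact ⟨h3, b', Or.inr rfl, hbb.symm, h1⟩
      · exact absurd rfl h2
    · rintro ⟨h1, c, rfl | rfl, h2, h3⟩
      · exact absurd rfl h2
      · exact ⟨h3, b, Or.inl rfl, hbb, h1⟩
  set M := sh N {b, b'} b with hMdef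
  have hm : 2 ≤ M.card := hth b (by simp)
  have hbM : b ∉ M := fun h => hN.out b hbB b (sh_subset N _ b h) hbB
  have hbM' : b' ∉ M := fun h => hN.out b hbB b' (sh_subset N _ b h) hbB'
  have e1 : ∀ z : V → Ω, ∏ c ∈ ({b, b'} : Finset V), Phi μ U N (N c \ sh N {b, b'} c) c z =
      1 * ∏ c ∈ ({b, b'} : Finset V), ∫ y, ((∏ a ∈ M, (1 + U s(z a, y))) - 1) ∂μ := by
    intro z
    rw [one_mul]
    refine Finset.prod_congr rfl fun c hc => ?_
    unfold Phi
    rw [sdiff_sh]
    rw [Finset.mem_insert, Finset.mem_singleton] at hc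
    rcases hc with rfl | rfl
    · rfl
    · rw [hM]
  simp only [e1]
  rw [int_prod_fresh μ ({b, b'} : Finset V)
    (h := fun c z y => (∏ a ∈ M, (1 + U s(z a, y))) - 1) ?_ ?_ (BM.const 1)
    (fun b _ x t => rfl)]
  · have e2 : ∀ z : V → Ω,
        1 * ∏ c ∈ ({b, b'} : Finset V), ((∏ a ∈ M, (1 + U s(z a, z c))) - 1) =
        ((∏ a ∈ M, ((1 + U s(z a, z b)) * (1 + U s(z a, z b')))) * 1 -
          ∏ a ∈ M, (1 + U s(z a, z b))) - ((∏ a ∈ M, (1 + U s(z a, z b'))) - 1) := by
      intro z
      rw [Finset.prod_pair hbb, Finset.prod_mul_distrib]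
      ring
    simp only [e2]
    have bu : ∀ u v : V, BM (fun z : V → Ω => 1 + U s(z u, z v)) :=
      fun u v => (BM.const 1).add (bm_U hU.good u v)
    have bPP : BM (fun z : V → Ω =>
        (∏ a ∈ M, ((1 + U s(z a, z b)) * (1 + U s(z a, z b')))) * 1) :=
      (BM.finprod _ fun a _ => (bu a b).mul (bu a b')).mul (BM.const 1)
    have bP := bm_prod_v hU.good M b
    have bP' := bm_prod_v hU.good M b'
    rw [integral_sub ((bPP.sub bP).integrable _) ((bP'.sub (BM.const 1)).integrable _),
      integral_sub (bPP.integrable _) (bP.integrable _),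
      integral_sub (bP'.integrable _) ((BM.const 1).integrable _),
      int_singles μ hU M hbM, int_singles μ hU M hbM',
      int_pairs μ hU M hbM hbM' (BM.const 1) (fun _ _ _ _ => rfl)]
    have e3 : ∫ z : V → Ω, (1 + T2 μ U (z b) (z b')) ^ M.card * 1 ∂(piM V μ) =
        ∫ s, ∫ t, (1 + T2 μ U s t) ^ M.card ∂μ ∂μ := by
      simp only [mul_one]
      exact integral_eval2 μ hbb (g := fun s t => (1 + T2 μ U s t) ^ M.card)
        (((BM.const 1).add (bm_T2 μ hU.good)).pow _)
    have e4 : ∫ z : V → Ω, (1:ℝ) ∂(piM V μ) = 1 := by simp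
    rw [e3, e4, ck_two_eq μ hU.good]
    -- compare
    have bT : BM (fun p : Ω × Ω => T2 μ U p.1 p.2) := bm_T2 μ hU.good
    have bpow : BM (fun p : Ω × Ω => (1 + T2 μ U p.1 p.2) ^ M.card) :=
      ((BM.const 1).add bT).pow _
    have bsq : BM (fun p : Ω × Ω => T2 μ U p.1 p.2 ^ 2) := bT.pow 2
    have hpt : ∀ s t, T2 μ U s t ^ 2 + (1 + M.card * T2 μ U s t) ≤
        (1 + T2 μ U s t) ^ M.card := by
      intro s t
      have := pow_ge_quad (abs_le.1 (abs_T2_le μ hU.good s t)).1 hm
      linarith
    have i1 : ∀ (F : Ω → Ω → ℝ), BM (fun p : Ω × Ω => F p.1 p.2) → ∀ s,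
        Integrable (fun t => F s t) μ := fun F hF s =>
      (hF.comp (g := fun t : Ω => (s, t)) (by fun_prop)).integrable _
    have i2 : ∀ (F : Ω → Ω → ℝ), BM (fun p : Ω × Ω => F p.1 p.2) →
        Integrable (fun s => ∫ t, F s t ∂μ) μ := fun F hF =>
      (hF.integral_right μ).integrable _
    have blin : BM (fun p : Ω × Ω => 1 + M.card * T2 μ U p.1 p.2) :=
      (BM.const 1).add ((BM.const _).mul bT)
    have hmono : ∫ s, ∫ t, (T2 μ U s t ^ 2 + (1 + M.card * T2 μ U s t)) ∂μ ∂μ ≤
        ∫ s, ∫ t, (1 + T2 μ U s t) ^ M.card ∂μ ∂μ := by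
      refine integral_mono (i2 (fun s t => T2 μ U s t ^ 2 + (1 + M.card * T2 μ U s t))
        (bsq.add blin)) (i2 (fun s t => (1 + T2 μ U s t) ^ M.card) bpow) fun s => ?_
      exact integral_mono (i1 (fun s t => T2 μ U s t ^ 2 + (1 + M.card * T2 μ U s t))
        (bsq.add blin) s) (i1 (fun s t => (1 + T2 μ U s t) ^ M.card) bpow s) fun t => hpt s t
    have hsplit : ∫ s, ∫ t, (T2 μ U s t ^ 2 + (1 + M.card * T2 μ U s t)) ∂μ ∂μ =
        ∫ s, ∫ t, T2 μ U s t ^ 2 ∂μ ∂μ + 1 := by
      have h1 : ∀ s, ∫ t, (T2 μ U s t ^ 2 + (1 + M.card * T2 μ U s t)) ∂μ =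
          ∫ t, T2 μ U s t ^ 2 ∂μ + (1 + M.card * ∫ t, T2 μ U s t ∂μ) := by
        intro s
        rw [integral_add (i1 (fun s t => T2 μ U s t ^ 2) bsq s)
            (i1 (fun s t => 1 + M.card * T2 μ U s t) blin s),
          integral_add (i1 (fun _ _ => (1:ℝ)) (BM.const 1) s)
            (i1 (fun s t => M.card * T2 μ U s t) ((BM.const _).mul bT) s), integral_const_mul]
        simp
      simp only [h1]
      have i3 : Integrable (fun s => M.card * ∫ t, T2 μ U s t ∂μ) μ :=
        ((BM.const (M.card : ℝ)).mul (bT.integral_right μ)).integrable _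
      have i4 : Integrable (fun s => (1:ℝ) + M.card * ∫ t, T2 μ U s t ∂μ) μ :=
        ((BM.const (1:ℝ)).add
          ((BM.const (M.card : ℝ)).mul (bT.integral_right μ))).integrable _
      rw [integral_add (i2 (fun s t => T2 μ U s t ^ 2) bsq) i4, integral_add (integrable_const _) i3, integral_const_mul,
        int_T2 μ hU]
      simp
    rw [hsplit] at hmono
    linarith
  · intro c _
    exact (bm_prod hU.good M).sub (BM.const 1)
  · intro c _ c' hc' z t y
    congr 1
    refine Finset.prod_congr rfl fun a ha => ?_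
    have : a ≠ c' := by
      rintro rfl
      rw [Finset.mem_insert, Finset.mem_singleton] at hc'
      rcases hc' with rfl | rfl
      · exact hbM ha
      · exact hbM' ha
    rw [Function.update_of_ne this]

end

end Vale.Agent.P050.Dense.M6
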