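import Mathlib

/-!
P050, DenseTargets (helper300), module M1: abstract polymer gas on the subsets of a finite set.
Connected sets, components, the deletion recursion and a lower bound for `log Z`.
-/

set_option autoImplicit false
set_option linter.all false

namespace Vale.Agent.P050.R2.H146

open Finset

variable {B : Type*} [DecidableEq B]

/-- one step inside `g` -/
def Stp (A : B → B → Prop) (g : Finset B) (u v : B) : Prop := A u v ∧ u ∈ g ∧ v ∈ g

/-- `g` is non-empty and any two points of `g` are joined by a chain of neighbours inside `g` -/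
def Conn (A : B → B → Prop) (g : Finset B) : Prop :=
  g.Nonempty ∧ ∀ x ∈ g, ∀ y ∈ g, Relation.ReflTransGen (Stp A g) x y

/-- the closed neighbourhood of `g` in `L` -/
noncomputable def Nb (A : B → B → Prop) (L g : Finset B) : Finset B := by
  classical
  exact L.filter fun x => x ∈ g ∨ ∃ y ∈ g, A y x

/-- the component of `b` in `S` -/
noncomputable def cmp (A : B → B → Prop) (S : Finset B) (b : B) : Finset B := by
  classical
  exact S.filter fun x => Relation.ReflTransGen (Stp A S) b x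

section Basic

variable {A : B → B → Prop} {g S L T : Finset B} {b x y : B}

theorem mem_Nb : x ∈ Nb A L g ↔ x ∈ L ∧ (x ∈ g ∨ ∃ y ∈ g, A y x) := by
  classical
  simp [Nb]

theorem mem_cmp : x ∈ cmp A S b ↔ x ∈ S ∧ Relation.ReflTransGen (Stp A S) b x := by
  classical
  simp [cmp]

theorem cmp_subset : cmp A S b ⊆ S := fun _ h => (mem_cmp.1 h).1

theorem self_mem_cmp (hb : b ∈ S) : b ∈ cmp A S b := mem_cmp.2 ⟨hb, .refl⟩

theorem Stp.symm (hA : ∀ u v, A u v → A v u) {u v : B} (h : Stp A g u v) : Stp A g v u :=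
  ⟨hA _ _ h.1, h.2.2, h.2.1⟩

theorem rtg_symm (hA : ∀ u v, A u v → A v u) {u v : B}
    (h : Relation.ReflTransGen (Stp A g) u v) : Relation.ReflTransGen (Stp A g) v u := by
  induction h with
  | refl => exact .refl
  | tail _ h2 ih => exact Relation.ReflTransGen.head (Stp.symm hA h2) ih

theorem rtg_mono (h : g ⊆ S) {u v : B} (h1 : Relation.ReflTransGen (Stp A g) u v) :
    Relation.ReflTransGen (Stp A S) u v := by
  induction h1 with
  | refl => exact .refl
  | tail _ h2 ih => exact ih.tail ⟨h2.1, h h2.2.1, h h2.2.2⟩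

theorem cmp_closed (hx : x ∈ cmp A S b) (hy : y ∈ S) (h : A x y) : y ∈ cmp A S b := by
  rw [mem_cmp] at hx ⊢
  exact ⟨hy, hx.2.tail ⟨h, hx.1, hy⟩⟩

theorem rtg_cmp (hb : b ∈ S) {u : B} (h : Relation.ReflTransGen (Stp A S) b u) :
    Relation.ReflTransGen (Stp A (cmp A S b)) b u := by
  induction h with
  | refl => exact .refl
  | @tail v w h1 h2 ih =>
    refine ih.tail ⟨h2.1, ?_, ?_⟩
    · exact mem_cmp.2 ⟨h2.2.1, h1⟩
    · exact mem_cmp.2 ⟨h2.2.2, h1.tail h2⟩

theorem cmp_conn (hA : ∀ u v, A u v → A v u) (hb : b ∈ S) : Conn A (cmp A S b) := by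
  refine ⟨⟨b, self_mem_cmp hb⟩, fun x hx y hy => ?_⟩
  have h1 := rtg_cmp hb (mem_cmp.1 hx).2
  have h2 := rtg_cmp hb (mem_cmp.1 hy).2
  exact (rtg_symm hA h1).trans h2

theorem cmp_union (hg : Conn A g) (hb : b ∈ g) (hT : ∀ t ∈ T, t ∉ g ∧ ∀ u ∈ g, ¬ A u t) :
    cmp A (g ∪ T) b = g := by
  apply Subset.antisymm
  · intro x hx
    obtain ⟨-, h⟩ := mem_cmp.1 hx
    clear hx
    induction h with
    | refl => exact hb
    | @tail v w h1 h2 ih =>
      rcases mem_union.1 h2.2.2 with h | h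
      · exact h
      · exact absurd h2.1 ((hT w h).2 v ih)
  · intro x hx
    exact mem_cmp.2 ⟨mem_union_left _ hx, rtg_mono subset_union_left (hg.2 b hb x hx)⟩

theorem conn_singleton : Conn A {b} := by
  refine ⟨singleton_nonempty b, fun x hx y hy => ?_⟩
  rw [mem_singleton] at hx hy
  subst hx hy
  exact .refl

end Basic

/-! ### the gas -/

/-- `w ∅ = 1` and `w` is multiplicative over sets without bonds between them -/
structure IsGas (A : B → B → Prop) (w : Finset B → ℝ) : Prop where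
  empty : w ∅ = 1
  mul : ∀ S T : Finset B, Disjoint S T → (∀ x ∈ S, ∀ y ∈ T, ¬ A x y) → w (S ∪ T) = w S * w T

/-- the partition function on `L` -/
def Zp (w : Finset B → ℝ) (L : Finset B) : ℝ := ∑ S ∈ L.powerset, w S

/-- the connected subsets of `insert b L` which contain `b` -/
noncomputable def Pol (A : B → B → Prop) (L : Finset B) (b : B) : Finset (Finset B) := by
  classical
  exact (insert b L).powerset.filter fun g => b ∈ g ∧ Conn A g

/-- the connected subsets of `L` -/
noncomputable def PolA (A : B → B → Prop) (L : Finset B) : Finset (Finset B) := by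
  classical
  exact L.powerset.filter fun g => Conn A g

theorem mem_Pol {A : B → B → Prop} {L g : Finset B} {b : B} :
    g ∈ Pol A L b ↔ g ⊆ insert b L ∧ b ∈ g ∧ Conn A g := by
  classical
  simp [Pol]

theorem mem_PolA {A : B → B → Prop} {L g : Finset B} :
    g ∈ PolA A L ↔ g ⊆ L ∧ Conn A g := by
  classical
  simp [PolA]

theorem Zp_empty {A : B → B → Prop} {w : Finset B → ℝ} (h : IsGas A w) : Zp w ∅ = 1 := by
  simp [Zp, h.empty]

/-- **the deletion recursion** -/
theorem Zp_insert {A : B → B → Prop} (hA : ∀ u v, A u v → A v u) {w : Finset B → ℝ}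
    (h : IsGas A w) {L : Finset B} {b : B} (hb : b ∉ L) :
    Zp w (insert b L) = Zp w L + ∑ g ∈ Pol A L b, w g * Zp w (L \ Nb A L g) := by
  classical
  have h1 : Zp w (insert b L) = Zp w L +
      ∑ S ∈ (insert b L).powerset.filter (fun S => b ∈ S), w S := by
    unfold Zp
    rw [← sum_filter_add_sum_filter_not (insert b L).powerset (fun S => b ∉ S)]
    congr 1
    · refine sum_congr ?_ fun _ _ => rfl
      ext S
      simp only [mem_filter, mem_powerset]
      constructor
      · rintro ⟨h1, h2⟩ x hx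
        rcases mem_insert.1 (h1 hx) with rfl | h3
        · exact absurd hx h2
        · exact h3
      · intro h1
        exact ⟨h1.trans (subset_insert b L), fun h2 => hb (h1 h2)⟩
    · refine sum_congr ?_ fun _ _ => rfl
      ext S
      simp
  rw [h1]
  congr 1
  have h2 : ∀ g ∈ Pol A L b, w g * Zp w (L \ Nb A L g) =
      ∑ T ∈ (L \ Nb A L g).powerset, w (g ∪ T) := by
    intro g hg
    obtain ⟨hg1, hg2, hg3⟩ := mem_Pol.1 hg
    unfold Zp
    rw [mul_sum]
    refine sum_congr rfl fun T hT => ?_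
    rw [mem_powerset] at hT
    have h3 : ∀ t ∈ T, t ∉ g ∧ ∀ u ∈ g, ¬ A u t := by
      intro t ht
      have h4 := mem_sdiff.1 (hT ht)
      refine ⟨fun h5 => h4.2 (mem_Nb.2 ⟨h4.1, Or.inl h5⟩), fun u hu h5 =>
        h4.2 (mem_Nb.2 ⟨h4.1, Or.inr ⟨u, hu, h5⟩⟩)⟩
    rw [h.mul g T (disjoint_left.2 fun x hx hx2 => (h3 x hx2).1 hx)
      (fun x hx y hy => (h3 y hy).2 x hx)]
  rw [sum_congr rfl h2, sum_sigma']
  refine sum_bij' (fun S _ => ⟨cmp A S b, S \ cmp A S b⟩) (fun p _ => p.1 ∪ p.2) ?_ ?_ ?_ ?_ ?_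
  · intro S hS
    rw [mem_filter, mem_powerset] at hS
    rw [mem_sigma, mem_Pol, mem_powerset]
    refine ⟨⟨cmp_subset.trans hS.1, self_mem_cmp hS.2, cmp_conn hA hS.2⟩, ?_⟩
    intro x hx
    rw [mem_sdiff] at hx
    have hxb : x ≠ b := fun h3 => hx.2 (by rw [h3]; exact self_mem_cmp hS.2)
    have hxL : x ∈ L := by
      rcases mem_insert.1 (hS.1 hx.1) with h3 | h3
      · exact absurd h3 hxb
      · exact h3
    rw [mem_sdiff, mem_Nb]
    refine ⟨hxL, ?_⟩
    rintro ⟨-, h3 | ⟨y, hy, h3⟩⟩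
    · exact hx.2 h3
    · exact hx.2 (cmp_closed hy hx.1 h3)
  · rintro ⟨g, T⟩ hp
    rw [mem_sigma, mem_Pol, mem_powerset] at hp
    rw [mem_filter, mem_powerset]
    refine ⟨union_subset hp.1.1 ?_, mem_union_left _ hp.1.2.1⟩
    exact (hp.2.trans sdiff_subset).trans (subset_insert b L)
  · intro S hS
    show cmp A S b ∪ S \ cmp A S b = S
    rw [union_comm, sdiff_union_of_subset cmp_subset]
  · rintro ⟨g, T⟩ hp
    rw [mem_sigma, mem_Pol, mem_powerset] at hp
    have h3 : ∀ t ∈ T, t ∉ g ∧ ∀ u ∈ g, ¬ A u t := by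
      intro t ht
      have h4 := mem_sdiff.1 (hp.2 ht)
      refine ⟨fun h5 => h4.2 (mem_Nb.2 ⟨h4.1, Or.inl h5⟩), fun u hu h5 =>
        h4.2 (mem_Nb.2 ⟨h4.1, Or.inr ⟨u, hu, h5⟩⟩)⟩
    have h4 : cmp A (g ∪ T) b = g := cmp_union hp.1.2.2 hp.1.2.1 h3
    have h5 : (g ∪ T) \ g = T := by
      rw [union_sdiff_left]
      exact sdiff_eq_self_of_disjoint (disjoint_left.2 fun x hx hx2 => (h3 x hx).1 hx2)
    show (⟨cmp A (g ∪ T) b, (g ∪ T) \ cmp A (g ∪ T) b⟩ : Σ _ : Finset B, Finset B) = ⟨g, T⟩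
    rw [h4, h5]
  · intro S hS
    show w S = w (cmp A S b ∪ S \ cmp A S b)
    rw [union_comm, sdiff_union_of_subset cmp_subset]

/-! ### ratios -/

section Ratio

variable {A : B → B → Prop} {w : Finset B → ℝ} {s : ℝ} {M : Finset B}

/-- adding one vertex (inside `M`) changes `Z` by a factor in `[1 - s, 1 + s]` -/
def Quo (w : Finset B → ℝ) (s : ℝ) (M : Finset B) : Prop :=
  ∀ (L : Finset B) (b : B), b ∉ L → insert b L ⊆ M →
    (1 - s) * Zp w L ≤ Zp w (insert b L) ∧ Zp w (insert b L) ≤ (1 + s) * Zp w L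

theorem Zp_pos (h0 : IsGas A w) (hq : Quo w s M) (hs1 : s < 1) (L : Finset B) (hL : L ⊆ M) :
    0 < Zp w L := by
  induction L using Finset.induction_on with
  | empty => rw [Zp_empty h0]; exact one_pos
  | @insert b L hb ih =>
    exact lt_of_lt_of_le (mul_pos (sub_pos.2 hs1) (ih ((subset_insert b L).trans hL)))
      (hq L b hb hL).1

theorem Zp_le_sdiff (hq : Quo w s M) (hs0 : 0 ≤ s) (hs1 : s < 1)
    (L N : Finset B) (hL : L ⊆ M) (hN : N ⊆ L) : Zp w L ≤ (1 + s) ^ N.card * Zp w (L \ N) := by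
  induction N using Finset.induction_on with
  | empty => simp
  | @insert b N hb ih =>
    have hbL : b ∈ L := hN (mem_insert_self b N)
    have h1 := ih ((subset_insert b N).trans hN)
    have h2 : insert b (L \ insert b N) = L \ N := by
      ext x
      simp only [mem_insert, mem_sdiff, not_or]
      constructor
      · rintro (rfl | h)
        · exact ⟨hbL, hb⟩
        · exact ⟨h.1, h.2.2⟩
      · rintro ⟨h, h'⟩
        by_cases hxb : x = b
        · exact Or.inl hxb
        · exact Or.inr ⟨h, hxb, h'⟩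
    have h3 := (hq (L \ insert b N) b (by simp) (by rw [h2]; exact sdiff_subset.trans hL)).2
    rw [h2] at h3
    rw [card_insert_of_notMem hb, pow_succ, mul_assoc]
    exact h1.trans (mul_le_mul_of_nonneg_left h3 (by positivity))

theorem sdiff_le_Zp (hq : Quo w s M) (hs0 : 0 ≤ s) (hs1 : s < 1)
    (L N : Finset B) (hL : L ⊆ M) (hN : N ⊆ L) : (1 - s) ^ N.card * Zp w (L \ N) ≤ Zp w L := by
  induction N using Finset.induction_on with
  | empty => simp
  | @insert b N hb ih =>
    have hbL : b ∈ L := hN (mem_insert_self b N)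
    have h1 := ih ((subset_insert b N).trans hN)
    have h2 : insert b (L \ insert b N) = L \ N := by
      ext x
      simp only [mem_insert, mem_sdiff, not_or]
      constructor
      · rintro (rfl | h)
        · exact ⟨hbL, hb⟩
        · exact ⟨h.1, h.2.2⟩
      · rintro ⟨h, h'⟩
        by_cases hxb : x = b
        · exact Or.inl hxb
        · exact Or.inr ⟨h, hxb, h'⟩
    have h3 := (hq (L \ insert b N) b (by simp) (by rw [h2]; exact sdiff_subset.trans hL)).1
    rw [h2] at h3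
    rw [card_insert_of_notMem hb, pow_succ, mul_assoc]
    have h4 : 0 ≤ 1 - s := by linarith
    exact (mul_le_mul_of_nonneg_left h3 (by positivity)).trans h1

/-- the elementary logarithm inequality -/
theorem log_low {y P N s : ℝ} (hs1 : s ≤ 1 / 2) (hy1 : 1 - s ≤ y) (hy2 : y ≤ 1 + s)
    (hP : 0 ≤ P) (hN : 0 ≤ N) (h : 1 + P - N ≤ y) : P / 2 - 2 * N ≤ Real.log y := by
  have hy : 0 < y := by linarith
  have h1 : 1 - y⁻¹ ≤ Real.log y := Real.one_sub_inv_le_log_of_pos hy
  refine le_trans ?_ h1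
  have h2 : 1 - y⁻¹ = (y - 1) / y := by field_simp
  rw [h2, le_div_iff₀ hy]
  rcases le_or_gt 0 (P - N) with h3 | h3
  · nlinarith
  · by_cases h4 : 1 ≤ y
    · nlinarith
    · push Not at h4
      nlinarith

/-- bounds of `Z(L \ Nb g) / Z(L)` -/
theorem quot_bounds (h0 : IsGas A w) (hq : Quo w s M) (hs0 : 0 ≤ s) (hs1 : s < 1) (L g : Finset B)
    (hL : L ⊆ M) (n : ℕ) (hn : (Nb A L g).card ≤ n) :
    (1 + s)⁻¹ ^ n ≤ Zp w (L \ Nb A L g) / Zp w L ∧
      Zp w (L \ Nb A L g) / Zp w L ≤ (1 - s)⁻¹ ^ n := by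
  have hZ := Zp_pos h0 hq hs1 L hL
  have hNsub : Nb A L g ⊆ L := fun x hx => (mem_Nb.1 hx).1
  have hr1 := Zp_le_sdiff hq hs0 hs1 L (Nb A L g) hL hNsub
  have hr2 := sdiff_le_Zp hq hs0 hs1 L (Nb A L g) hL hNsub
  have hp2 : (0 : ℝ) < 1 - s := by linarith
  constructor
  · have h1 : (1 + s)⁻¹ ^ n ≤ (1 + s)⁻¹ ^ (Nb A L g).card :=
      pow_le_pow_of_le_one (by positivity) (inv_le_one_of_one_le₀ (by linarith)) hn
    refine h1.trans ?_
    rw [inv_pow, le_div_iff₀ hZ, inv_mul_le_iff₀ (by positivity)]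
    exact hr1
  · have h1 : (1 - s)⁻¹ ^ (Nb A L g).card ≤ (1 - s)⁻¹ ^ n :=
      pow_le_pow_right₀ ((one_le_inv₀ hp2).2 (by linarith)) hn
    refine le_trans ?_ h1
    rw [inv_pow, div_le_iff₀ hZ, ← div_eq_inv_mul, le_div_iff₀ (by positivity)]
    linarith [hr2, mul_comm ((1 - s) ^ (Nb A L g).card) (Zp w (L \ Nb A L g))]

/-- the quotient `Z(insert b L) / Z(L)` is close to `1` (here `b` may be a point outside `M`, e.g.
an observable) -/
theorem abs_ratio_sub_one_le (hA : ∀ u v, A u v → A v u) (h0 : IsGas A w) (hq : Quo w s M)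
    (hs0 : 0 ≤ s) (hs1 : s < 1) (L : Finset B) (hL : L ⊆ M) {b : B} (hb : b ∉ L) (K : ℕ)
    (hK : ∀ g : Finset B, g ⊆ insert b L → Conn A g → (Nb A L g).card ≤ K * g.card) :
    |Zp w (insert b L) / Zp w L - 1| ≤ ∑ g ∈ Pol A L b, (1 - s)⁻¹ ^ (K * g.card) * |w g| := by
  have hZ := Zp_pos h0 hq hs1 L hL
  rw [Zp_insert hA h0 hb, add_div, div_self hZ.ne', add_sub_cancel_left, sum_div]
  refine (abs_sum_le_sum_abs _ _).trans (sum_le_sum fun g hg => ?_)
  obtain ⟨hg1, -, hg3⟩ := mem_Pol.1 hg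
  obtain ⟨h1, h2⟩ := quot_bounds h0 hq hs0 hs1 L g hL _ (hK g hg1 hg3)
  have h3 : 0 ≤ Zp w (L \ Nb A L g) / Zp w L := le_trans (by positivity) h1
  rw [mul_div_assoc, abs_mul, abs_of_nonneg h3, mul_comm]
  exact mul_le_mul_of_nonneg_right h2 (abs_nonneg _)

/-- **M1**: lower bound of `log Z` by the connected sets -/
theorem log_Zp_ge (hA : ∀ u v, A u v → A v u) (h0 : IsGas A w) (hq : Quo w s M) (hs0 : 0 ≤ s)
    (hs1 : s ≤ 1 / 2) (K : ℕ)
    (hK : ∀ L g : Finset B, L ⊆ M → g ⊆ M → Conn A g → (Nb A L g).card ≤ K * g.card)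
    (L : Finset B) (hL : L ⊆ M) :
    ∑ g ∈ PolA A L, ((1 + s)⁻¹ ^ (K * g.card) * max (w g) 0 / 2 -
      2 * ((1 - s)⁻¹ ^ (K * g.card) * max (-w g) 0)) ≤ Real.log (Zp w L) := by
  classical
  have hs1' : s < 1 := by linarith
  induction L using Finset.induction_on with
  | empty =>
    rw [Zp_empty h0, Real.log_one]
    apply le_of_eq
    apply sum_eq_zero
    intro g hg
    rw [mem_PolA, subset_empty] at hg
    exact absurd hg.1 hg.2.1.ne_empty
  | @insert b L hb ih =>
    have hL' : L ⊆ M := (subset_insert b L).trans hL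
    have hZ := Zp_pos h0 hq hs1' L hL'
    have hZ' := Zp_pos h0 hq hs1' (insert b L) hL
    have hsplit : PolA A (insert b L) = PolA A L ∪ Pol A L b := by
      ext g
      rw [mem_union, mem_PolA, mem_PolA, mem_Pol]
      constructor
      · rintro ⟨h1, h2⟩
        by_cases hbg : b ∈ g
        · exact Or.inr ⟨h1, hbg, h2⟩
        · refine Or.inl ⟨fun x hx => ?_, h2⟩
          rcases mem_insert.1 (h1 hx) with rfl | h3
          · exact absurd hx hbg
          · exact h3
      · rintro (⟨h1, h2⟩ | ⟨h1, h2, h3⟩)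
        · exact ⟨h1.trans (subset_insert b L), h2⟩
        · exact ⟨h1, h3⟩
    have hdisj : Disjoint (PolA A L) (Pol A L b) := by
      rw [disjoint_left]
      intro g h1 h2
      exact hb ((mem_PolA.1 h1).1 (mem_Pol.1 h2).2.1)
    rw [hsplit, sum_union hdisj]
    have hlog : Real.log (Zp w (insert b L)) =
        Real.log (Zp w L) + Real.log (Zp w (insert b L) / Zp w L) := by
      rw [Real.log_div hZ'.ne' hZ.ne']
      ring
    rw [hlog]
    refine add_le_add (ih hL') ?_
    rw [sum_sub_distrib, ← sum_div, ← mul_sum]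
    refine log_low hs1 ?_ ?_ (sum_nonneg fun g _ => ?_) (sum_nonneg fun g _ => ?_) ?_
    · rw [le_div_iff₀ hZ]
      exact (hq L b hb hL).1
    · rw [div_le_iff₀ hZ]
      exact (hq L b hb hL).2
    · have : (0 : ℝ) ≤ (1 + s)⁻¹ := by positivity
      positivity
    · have : (0 : ℝ) ≤ (1 - s)⁻¹ := by
        rw [inv_nonneg]; linarith
      positivity
    · rw [Zp_insert hA h0 hb, add_div, div_self hZ.ne', add_sub_assoc, add_le_add_iff_left,
        ← sum_sub_distrib, sum_div]
      refine sum_le_sum fun g hg => ?_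
      obtain ⟨hg1, -, hg3⟩ := mem_Pol.1 hg
      obtain ⟨hlow, hup⟩ := quot_bounds h0 hq hs0 hs1' L g hL' _ (hK L g hL' (hg1.trans hL) hg3)
      set q : ℝ := Zp w (L \ Nb A L g) / Zp w L with hqdef
      have hrw : w g * Zp w (L \ Nb A L g) / Zp w L = w g * q := by
        rw [hqdef, mul_div_assoc]
      rw [hrw]
      have hw : w g = max (w g) 0 - max (-w g) 0 := by
        rcases le_total 0 (w g) with h1 | h1
        · rw [max_eq_left h1, max_eq_right (by linarith)]; ring
        · rw [max_eq_right h1, max_eq_left (by linarith)]; ring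
      have e1 : (1 + s)⁻¹ ^ (K * g.card) * max (w g) 0 ≤ q * max (w g) 0 :=
        mul_le_mul_of_nonneg_right hlow (le_max_right _ _)
      have e2 : q * max (-w g) 0 ≤ (1 - s)⁻¹ ^ (K * g.card) * max (-w g) 0 :=
        mul_le_mul_of_nonneg_right hup (le_max_right _ _)
      calc _ ≤ q * max (w g) 0 - q * max (-w g) 0 := by linarith
        _ = (max (w g) 0 - max (-w g) 0) * q := by ring
        _ = w g * q := by rw [← hw]

end Ratio

end Vale.Agent.P050.R2.H146
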